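/-
helper63 — S0466 squad (coordinator helper62), HEDGE copy of leaf EXT2b: `star_map_facts`.
Statement copied from `Crest/Agent/Helper62/S0466/Blueprint.lean`.
-/
import Crest.Agent.Helper62.S0466.Defs

set_option autoImplicit false

namespace Crest.Agent.Helper63.S0466

open Crest.Agent.Helper62.S0466

section helpers

variable {V E : Type} [DecidableEq V] [DecidableEq E]

/-- Extension by zero of a vector indexed by the edges of `F`. -/
def extF (F : Finset E) : ((↥F) → ℝ) →ₗ[ℝ] (E → ℝ) where
  toFun g := fun e => if he : e ∈ F then g ⟨e, he⟩ else 0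
  map_add' g₁ g₂ := by
    funext e
    by_cases he : e ∈ F <;> simp [he]
  map_smul' a g := by
    funext e
    by_cases he : e ∈ F <;> simp [he]

theorem extF_apply_of_mem (F : Finset E) (g : (↥F) → ℝ) {e : E} (he : e ∈ F) :
    extF F g e = g ⟨e, he⟩ := by
  simp [extF, he]

theorem extF_apply_of_not_mem (F : Finset E) (g : (↥F) → ℝ) {e : E} (he : e ∉ F) :
    extF F g e = 0 := by
  simp [extF, he]

theorem extF_injective (F : Finset E) : Function.Injective (extF F) := by
  intro g₁ g₂ h
  funext ⟨e, he⟩
  have := congrFun h e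
  rwa [extF_apply_of_mem F g₁ he, extF_apply_of_mem F g₂ he] at this

/-- The star-sum map, restricted to the active vertices. -/
def starSum (ends : E → V × V) (A : Finset V) (F : Finset E) : (E → ℝ) →ₗ[ℝ] ((↥A) → ℝ) where
  toFun h := fun w => ∑ e ∈ star ends F w.1, h e
  map_add' h₁ h₂ := by
    funext w
    simp [Finset.sum_add_distrib]
  map_smul' a h := by
    funext w
    simp [Finset.mul_sum]

omit [DecidableEq E] in
/-- Double counting: the degrees of the active vertices sum to twice the number of edges. -/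
theorem sum_card_star (ends : E → V × V) {A : Finset V} {F : Finset E} (hWF : WF ends A F) :
    ∑ w ∈ A, (star ends F w).card = 2 * F.card := by
  have h1 : ∀ w ∈ A, (star ends F w).card =
      ∑ e ∈ F, if (ends e).1 = w ∨ (ends e).2 = w then 1 else 0 := by
    intro w _
    rw [Crest.Agent.Helper62.S0466.star, Finset.card_filter]
  rw [Finset.sum_congr rfl h1, Finset.sum_comm]
  have h2 : ∀ e ∈ F, (∑ w ∈ A, if (ends e).1 = w ∨ (ends e).2 = w then 1 else 0) = 2 := by
    intro e he
    obtain ⟨ha, hb, hab⟩ := hWF e he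
    rw [← Finset.card_filter]
    have : A.filter (fun w => (ends e).1 = w ∨ (ends e).2 = w) = {(ends e).1, (ends e).2} := by
      ext w
      simp only [Finset.mem_filter, Finset.mem_insert, Finset.mem_singleton]
      constructor
      · rintro ⟨-, h | h⟩
        · exact Or.inl h.symm
        · exact Or.inr h.symm
      · rintro (h | h)
        · exact ⟨h ▸ ha, Or.inl h.symm⟩
        · exact ⟨h ▸ hb, Or.inr h.symm⟩
    rw [this, Finset.card_pair hab]
  rw [Finset.sum_congr rfl h2, Finset.sum_const, smul_eq_mul, mul_comm]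

end helpers

variable {V E : Type} [DecidableEq V] [DecidableEq E]

/-- Counting: if the star map `h ↦ (∑_{e ∈ star w} h e)_w` is injective on vectors supported on
`F` and all degrees are at least two, then all degrees are exactly two (so `|F| = |A|`) and the
star map is onto. -/
theorem star_map_facts {ends : E → V × V} {A : Finset V} {F : Finset E} (hWF : WF ends A F)
    (hinj : ∀ h : E → ℝ, (∀ e, e ∉ F → h e = 0) →
      (∀ w ∈ A, ∑ e ∈ star ends F w, h e = 0) → h = 0)
    (hdeg : ∀ w ∈ A, 2 ≤ (star ends F w).card) :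
    (∀ w ∈ A, (star ends F w).card = 2) ∧
      ∀ y : V → ℝ, ∃ h : E → ℝ, (∀ e, e ∉ F → h e = 0) ∧
        ∀ w ∈ A, ∑ e ∈ star ends F w, h e = y w := by
  classical
  set B : ((↥F) → ℝ) →ₗ[ℝ] ((↥A) → ℝ) := (starSum ends A F).comp (extF F) with hB
  have hBapply : ∀ (g : (↥F) → ℝ) (w : V) (hw : w ∈ A),
      B g ⟨w, hw⟩ = ∑ e ∈ star ends F w, extF F g e := by
    intro g w hw; rfl
  -- injectivity
  have hBinj : Function.Injective B := by
    rw [← LinearMap.ker_eq_bot, LinearMap.ker_eq_bot']
    intro g hg
    have h0 : extF F g = 0 := by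
      refine hinj _ (fun e he => extF_apply_of_not_mem F g he) (fun w hw => ?_)
      rw [← hBapply g w hw, hg]; rfl
    exact extF_injective F (by rw [h0, map_zero])
  -- |F| ≤ |A|
  have hle : F.card ≤ A.card := by
    have := LinearMap.finrank_le_finrank_of_injective hBinj
    rwa [Module.finrank_fintype_fun_eq_card, Module.finrank_fintype_fun_eq_card,
      Fintype.card_coe, Fintype.card_coe] at this
  -- double counting
  have hsum := sum_card_star ends hWF
  have hge : 2 * A.card ≤ ∑ w ∈ A, (star ends F w).card := by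
    calc 2 * A.card = ∑ _w ∈ A, 2 := by rw [Finset.sum_const, smul_eq_mul, mul_comm]
      _ ≤ ∑ w ∈ A, (star ends F w).card := Finset.sum_le_sum hdeg
  have hcard : F.card = A.card := by omega
  have hdeg2 : ∀ w ∈ A, (star ends F w).card = 2 := by
    by_contra hne
    push Not at hne
    obtain ⟨w₀, hw₀, hw₀ne⟩ := hne
    have hlt : ∑ _w ∈ A, 2 < ∑ w ∈ A, (star ends F w).card :=
      Finset.sum_lt_sum hdeg ⟨w₀, hw₀, lt_of_le_of_ne (hdeg w₀ hw₀) (Ne.symm hw₀ne)⟩
    rw [Finset.sum_const, smul_eq_mul] at hlt
    omega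
  refine ⟨hdeg2, fun y => ?_⟩
  -- surjectivity
  have hfin : Module.finrank ℝ ((↥F) → ℝ) = Module.finrank ℝ ((↥A) → ℝ) := by
    rw [Module.finrank_fintype_fun_eq_card, Module.finrank_fintype_fun_eq_card,
      Fintype.card_coe, Fintype.card_coe, hcard]
  have hBsurj : Function.Surjective B :=
    (LinearMap.injective_iff_surjective_of_finrank_eq_finrank hfin).1 hBinj
  obtain ⟨g, hg⟩ := hBsurj (fun w : ↥A => y w.1)
  refine ⟨extF F g, fun e he => extF_apply_of_not_mem F g he, fun w hw => ?_⟩
  rw [← hBapply g w hw, hg]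

end Crest.Agent.Helper63.S0466
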