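import Crest.Agent.Helper63.S0466.Polyhedron

set_option autoImplicit false

namespace Crest.Agent.Helper63.S0466

/-- A polyhedron `{y | ∀ i, d i ≤ f i y}` in a finite coordinate space is closed (any index type). -/
theorem isClosed_polyhedron {κ : Type*} [Finite κ] {ι : Type*}
    (f : ι → (κ → ℝ) →ₗ[ℝ] ℝ) (d : ι → ℝ) : IsClosed {y : κ → ℝ | ∀ i, d i ≤ f i y} := by
  have : {y : κ → ℝ | ∀ i, d i ≤ f i y} = ⋂ i, {y : κ → ℝ | d i ≤ f i y} := by
    ext y; simp
  rw [this]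
  refine isClosed_iInter fun i => ?_
  exact isClosed_le continuous_const (f i).continuous_of_finiteDimensional

/-- A polyhedron `{y | ∀ i, d i ≤ f i y}` is convex. -/
theorem convex_polyhedron {E : Type*} [AddCommGroup E] [Module ℝ E] {ι : Type*}
    (f : ι → E →ₗ[ℝ] ℝ) (d : ι → ℝ) : Convex ℝ {y : E | ∀ i, d i ≤ f i y} := by
  intro y hy z hz a b ha hb hab i
  have h1 := hy i
  have h2 := hz i
  simp only [map_add, map_smul, smul_eq_mul]
  calc d i = a * d i + b * d i := by rw [← add_mul, hab, one_mul]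
    _ ≤ a * f i y + b * f i z :=
      add_le_add (mul_le_mul_of_nonneg_left h1 ha) (mul_le_mul_of_nonneg_left h2 hb)

/-- A closed subset of a coordinate box is compact. -/
theorem isCompact_of_isClosed_of_subset_box {κ : Type*} {Q : Set (κ → ℝ)} (hQ : IsClosed Q)
    (a b : ℝ) (hbox : ∀ y ∈ Q, ∀ e, a ≤ y e ∧ y e ≤ b) : IsCompact Q := by
  refine IsCompact.of_isClosed_subset (isCompact_univ_pi fun _ : κ => isCompact_Icc (a := a) (b := b))
    hQ ?_
  intro y hy e _
  exact hbox y hy e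

/-- A bounded polyhedron in a finite coordinate space, given as a set with a membership
characterisation, is compact and convex. -/
theorem isCompact_convex_of_polyhedron {κ : Type*} [Finite κ] {ι : Type*}
    (f : ι → (κ → ℝ) →ₗ[ℝ] ℝ) (d : ι → ℝ) {Q : Set (κ → ℝ)}
    (hQ : ∀ y, y ∈ Q ↔ ∀ i, d i ≤ f i y) (a b : ℝ)
    (hbox : ∀ y ∈ Q, ∀ e, a ≤ y e ∧ y e ≤ b) : IsCompact Q ∧ Convex ℝ Q := by
  have hEq : Q = {y : κ → ℝ | ∀ i, d i ≤ f i y} := by
    ext y; exact hQ y
  refine ⟨isCompact_of_isClosed_of_subset_box ?_ a b hbox, ?_⟩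
  · rw [hEq]; exact isClosed_polyhedron f d
  · rw [hEq]; exact convex_polyhedron f d

/-- Krein–Milman for a bounded polyhedron against the convex hull of a finite set. -/
theorem polyhedron_subset_convexHull {κ : Type*} [Finite κ] {ι : Type*}
    (f : ι → (κ → ℝ) →ₗ[ℝ] ℝ) (d : ι → ℝ) {Q : Set (κ → ℝ)}
    (hQ : ∀ y, y ∈ Q ↔ ∀ i, d i ≤ f i y) (a b : ℝ)
    (hbox : ∀ y ∈ Q, ∀ e, a ≤ y e ∧ y e ≤ b) {S : Set (κ → ℝ)} (hS : S.Finite)
    (h : Q.extremePoints ℝ ⊆ convexHull ℝ S) : Q ⊆ convexHull ℝ S := by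
  obtain ⟨hc, hv⟩ := isCompact_convex_of_polyhedron f d hQ a b hbox
  exact subset_convexHull_of_extremePoints_subset hc hv hS h

end Crest.Agent.Helper63.S0466
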