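/-
helper63 — S0466 squad (coordinator helper62), leaf KM: Krein–Milman reduction.
Statement copied from `Crest/Agent/Helper62/S0466/Blueprint.lean`.
-/
import Crest.Agent.Helper62.S0466.Defs
import Crest.Agent.Helper63.S0466.PolyTop

set_option autoImplicit false

namespace Crest.Agent.Helper63.S0466

open Crest.Agent.Helper62.S0466

variable {V E : Type} [DecidableEq V]

/-- `QQ` is closed. -/
theorem isClosed_QQ (ends : E → V × V) (A : Finset V) (F : Finset E) :
    IsClosed (QQ ends A F) := by
  have hEq : QQ ends A F =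
      (⋂ e, {x : E → ℝ | e ∉ F → x e = 0}) ∩ (⋂ e, {x : E → ℝ | 0 ≤ x e}) ∩
      (⋂ w, {x : E → ℝ | w ∈ A → ∑ e ∈ star ends F w, x e = 1}) ∩
      (⋂ U : Finset V, {x : E → ℝ | U ⊆ A → Odd U.card → 1 ≤ ∑ e ∈ cut ends F U, x e}) := by
    ext x
    simp only [QQ, Set.mem_ofPred_eq, Set.mem_inter_iff, Set.mem_iInter]
    tauto
  rw [hEq]
  have hsum : ∀ s : Finset E, Continuous fun x : E → ℝ => ∑ e ∈ s, x e := fun s =>
    continuous_finsetSum _ fun e _ => continuous_apply e
  refine ((IsClosed.inter (IsClosed.inter ?_ ?_) ?_).inter ?_)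
  · refine isClosed_iInter fun e => ?_
    by_cases he : e ∈ F
    · simp [he]
    · simpa [he] using isClosed_eq (continuous_apply e) continuous_const
  · exact isClosed_iInter fun e => isClosed_le continuous_const (continuous_apply e)
  · refine isClosed_iInter fun w => ?_
    by_cases hw : w ∈ A
    · simpa [hw] using isClosed_eq (hsum (star ends F w)) continuous_const
    · simp [hw]
  · refine isClosed_iInter fun U => ?_
    by_cases hU : U ⊆ A ∧ Odd U.card
    · have : {x : E → ℝ | U ⊆ A → Odd U.card → 1 ≤ ∑ e ∈ cut ends F U, x e} =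
          {x : E → ℝ | 1 ≤ ∑ e ∈ cut ends F U, x e} := by
        ext x; simp only [Set.mem_ofPred_eq]
        exact ⟨fun h => h hU.1 hU.2, fun h _ _ => h⟩
      rw [this]
      exact isClosed_le continuous_const (hsum (cut ends F U))
    · have : {x : E → ℝ | U ⊆ A → Odd U.card → 1 ≤ ∑ e ∈ cut ends F U, x e} = Set.univ := by
        ext x; simp only [Set.mem_ofPred_eq, Set.mem_univ, iff_true]
        intro h1 h2; exact absurd ⟨h1, h2⟩ hU
      rw [this]; exact isClosed_univ

/-- `QQ` is convex. -/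
theorem convex_QQ (ends : E → V × V) (A : Finset V) (F : Finset E) :
    Convex ℝ (QQ ends A F) := by
  rintro y ⟨hy1, hy2, hy3, hy4⟩ z ⟨hz1, hz2, hz3, hz4⟩ a b ha hb hab
  have hsum : ∀ s : Finset E, ∑ e ∈ s, (a • y + b • z) e =
      a * ∑ e ∈ s, y e + b * ∑ e ∈ s, z e := by
    intro s
    simp only [Pi.add_apply, Pi.smul_apply, smul_eq_mul, Finset.sum_add_distrib, Finset.mul_sum]
  refine ⟨fun e he => ?_, fun e => ?_, fun w hw => ?_, fun U hU hodd => ?_⟩
  · simp [hy1 e he, hz1 e he]
  · simp only [Pi.add_apply, Pi.smul_apply, smul_eq_mul]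
    exact add_nonneg (mul_nonneg ha (hy2 e)) (mul_nonneg hb (hz2 e))
  · rw [hsum, hy3 w hw, hz3 w hw, mul_one, mul_one, hab]
  · rw [hsum]
    have h1 := hy4 U hU hodd
    have h2 := hz4 U hU hodd
    calc (1 : ℝ) = a * 1 + b * 1 := by rw [mul_one, mul_one, hab]
      _ ≤ a * ∑ e ∈ cut ends F U, y e + b * ∑ e ∈ cut ends F U, z e :=
        add_le_add (mul_le_mul_of_nonneg_left h1 ha) (mul_le_mul_of_nonneg_left h2 hb)

/-- Every coordinate of a point of `QQ` of a well-formed graph lies in `[0, 1]`. -/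
theorem QQ_coord_mem_Icc {ends : E → V × V} {A : Finset V} {F : Finset E} (hWF : WF ends A F)
    {x : E → ℝ} (hx : x ∈ QQ ends A F) (e : E) : 0 ≤ x e ∧ x e ≤ 1 := by
  obtain ⟨h1, h2, h3, -⟩ := hx
  refine ⟨h2 e, ?_⟩
  by_cases he : e ∈ F
  · obtain ⟨hA1, -, -⟩ := hWF e he
    have hmem : e ∈ star ends F (ends e).1 := by
      simp [Crest.Agent.Helper62.S0466.star, he]
    have := Finset.single_le_sum (f := x) (fun i _ => h2 i) hmem
    rw [h3 _ hA1] at this
    exact this
  · rw [h1 e he]; exact zero_le_one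

/-- `QQ` of a well-formed graph is compact. -/
theorem isCompact_QQ {ends : E → V × V} {A : Finset V} {F : Finset E} (hWF : WF ends A F) :
    IsCompact (QQ ends A F) :=
  isCompact_of_isClosed_of_subset_box (isClosed_QQ ends A F) 0 1
    fun _ hy e => QQ_coord_mem_Icc hWF hy e

/-- Krein–Milman reduction: `QQ` is compact convex, `PP` is closed, so it suffices to treat the
extreme points of `QQ`. -/
theorem QQ_subset_PP_of_extreme [DecidableEq E] [Fintype E] {ends : E → V × V} {A : Finset V} {F : Finset E}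
    (hWF : WF ends A F)
    (h : ∀ x ∈ (QQ ends A F).extremePoints ℝ, x ∈ PP ends A F) :
    QQ ends A F ⊆ PP ends A F := by
  have hfin : (ind '' {M : Finset E | IsPM ends A F M}).Finite :=
    (Set.toFinite _).image _
  exact subset_convexHull_of_extremePoints_subset (isCompact_QQ hWF) (convex_QQ ends A F) hfin h

end Crest.Agent.Helper63.S0466
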