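/-
helper63 — S0466 squad (coordinator helper62), leaf DIM: rank–nullity bound.
Statement copied from `Crest/Agent/Helper62/S0466/Blueprint.lean`.
-/
import Crest.Agent.Helper62.S0466.Defs

set_option autoImplicit false

namespace Crest.Agent.Helper63.S0466

open Crest.Agent.Helper62.S0466

section helpers

variable {E : Type}

/-- Extension by zero of a vector indexed by the subtype `{e // P e}`. -/
def extZero [Fintype E] (P : E → Prop) [DecidablePred P] : ({e // P e} → ℝ) →ₗ[ℝ] (E → ℝ) where
  toFun h := fun e => if hp : P e then h ⟨e, hp⟩ else 0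
  map_add' h₁ h₂ := by
    funext e
    by_cases hp : P e <;> simp [hp]
  map_smul' a h := by
    funext e
    by_cases hp : P e <;> simp [hp]

theorem extZero_apply_of_pos [Fintype E] (P : E → Prop) [DecidablePred P] (h : {e // P e} → ℝ)
    {e : E} (hp : P e) : extZero P h e = h ⟨e, hp⟩ := by
  simp [extZero, hp]

theorem extZero_apply_of_neg [Fintype E] (P : E → Prop) [DecidablePred P] (h : {e // P e} → ℝ)
    {e : E} (hp : ¬ P e) : extZero P h e = 0 := by
  simp [extZero, hp]

theorem extZero_injective [Fintype E] (P : E → Prop) [DecidablePred P] :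
    Function.Injective (extZero P) := by
  intro h₁ h₂ h
  funext ⟨e, hp⟩
  have := congrFun h e
  rwa [extZero_apply_of_pos P h₁ hp, extZero_apply_of_pos P h₂ hp] at this

/-- The dot product with the zero extension is a sum over the subtype. -/
theorem sum_mul_extZero [Fintype E] (P : E → Prop) [DecidablePred P] (c : E → ℝ)
    (h : {e // P e} → ℝ) :
    ∑ e, c e * extZero P h e = ∑ e : {e // P e}, c e * h e := by
  have h1 : ∑ e, c e * extZero P h e = ∑ e ∈ Finset.univ.filter P, c e * extZero P h e := by
    symm
    refine Finset.sum_subset (Finset.filter_subset _ _) fun e _ he => ?_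
    have hp : ¬ P e := fun hp => he (Finset.mem_filter.2 ⟨Finset.mem_univ e, hp⟩)
    rw [extZero_apply_of_neg P h hp, mul_zero]
  rw [h1, Finset.sum_subtype (Finset.univ.filter P) (p := P) (by simp)]
  refine Finset.sum_congr rfl fun e _ => ?_
  rw [extZero_apply_of_pos P h e.2]

/-- The pairing of vectors supported on `P` with a submodule `S`, as a linear map into the dual. -/
def pairDual [Fintype E] (P : E → Prop) [DecidablePred P] (S : Submodule ℝ (E → ℝ)) :
    ({e // P e} → ℝ) →ₗ[ℝ] Module.Dual ℝ S where
  toFun h :=
    { toFun := fun c => ∑ e : {e // P e}, (c : E → ℝ) e * h e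
      map_add' := by
        intro c₁ c₂
        simp [add_mul, Finset.sum_add_distrib]
      map_smul' := by
        intro a c
        simp [Finset.mul_sum, mul_assoc] }
  map_add' h₁ h₂ := by
    ext c
    simp [mul_add, Finset.sum_add_distrib]
  map_smul' a h := by
    ext c
    simp [Finset.mul_sum, mul_left_comm]

end helpers

variable {V E : Type} [DecidableEq V] [DecidableEq E]

/-- Rank–nullity: the vectors supported on `P` and orthogonal to all of `Cs` span a space of
dimension at least `|P| - dim span Cs`; if they all lie in `D`, so does `span D`. -/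
theorem dim_bound [Fintype E] (P : E → Prop) [DecidablePred P] (Cs D : Set (E → ℝ))
    (hD : ∀ h : E → ℝ, (∀ e, ¬ P e → h e = 0) → (∀ c ∈ Cs, ∑ e, c e * h e = 0) → h ∈ D) :
    ((Finset.univ.filter P).card : ℤ) - (Module.finrank ℝ (Submodule.span ℝ Cs) : ℤ)
      ≤ (Module.finrank ℝ (Submodule.span ℝ D) : ℤ) := by
  classical
  set S : Submodule ℝ (E → ℝ) := Submodule.span ℝ Cs with hS
  set Φ := pairDual P S with hΦ
  -- the kernel embeds into `span D`
  have hker : ∀ h : {e // P e} → ℝ, h ∈ LinearMap.ker Φ → extZero P h ∈ Submodule.span ℝ D := by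
    intro h hh
    refine Submodule.subset_span (hD _ (fun e hp => extZero_apply_of_neg P h hp) ?_)
    intro c hc
    rw [sum_mul_extZero]
    have h0 : Φ h = 0 := LinearMap.mem_ker.1 hh
    have := congrArg (fun φ : Module.Dual ℝ S => φ ⟨c, Submodule.subset_span hc⟩) h0
    simpa [hΦ, pairDual] using this
  let ι : LinearMap.ker Φ →ₗ[ℝ] Submodule.span ℝ D :=
    LinearMap.codRestrict (Submodule.span ℝ D) ((extZero P).comp (LinearMap.ker Φ).subtype)
      (fun h => hker h.1 h.2)
  have hιinj : Function.Injective ι := by
    intro a b hab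
    have h1 : extZero P a.1 = extZero P b.1 := congrArg Subtype.val hab
    exact Subtype.ext (extZero_injective P h1)
  have h1 : Module.finrank ℝ (LinearMap.ker Φ) ≤ Module.finrank ℝ (Submodule.span ℝ D) :=
    LinearMap.finrank_le_finrank_of_injective hιinj
  have h2 : Module.finrank ℝ (LinearMap.range Φ) + Module.finrank ℝ (LinearMap.ker Φ) =
      Module.finrank ℝ ({e // P e} → ℝ) := LinearMap.finrank_range_add_finrank_ker Φ
  have h3 : Module.finrank ℝ (LinearMap.range Φ) ≤ Module.finrank ℝ S := by
    have := Submodule.finrank_le (LinearMap.range Φ)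
    rwa [Subspace.dual_finrank_eq] at this
  have h4 : Module.finrank ℝ ({e // P e} → ℝ) = (Finset.univ.filter P).card := by
    rw [Module.finrank_fintype_fun_eq_card, Fintype.card_subtype]
  have h5 : (Finset.univ.filter P).card ≤
      Module.finrank ℝ S + Module.finrank ℝ (Submodule.span ℝ D) := by
    rw [← h4, ← h2]; omega
  have h6 : ((Finset.univ.filter P).card : ℤ) ≤
      (Module.finrank ℝ S : ℤ) + (Module.finrank ℝ (Submodule.span ℝ D) : ℤ) := by
    exact_mod_cast h5
  linarith

end Crest.Agent.Helper63.S0466
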