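/-
helper63 — S0466 squad (coordinator helper62), HEDGE copy of leaf EASY: `PP_subset_QQ`.
Statement copied from `Crest/Agent/Helper62/S0466/Blueprint.lean`.
-/
import Crest.Agent.Helper62.S0466.Defs
import Crest.Agent.Helper63.S0466.KM

set_option autoImplicit false

namespace Crest.Agent.Helper63.S0466

open Crest.Agent.Helper62.S0466

section helpers

variable {V E : Type} [DecidableEq V]

/-- The sum of an indicator over a finite set is the size of the intersection. -/
theorem sum_ind_eq_card [DecidableEq E] (s M : Finset E) :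
    ∑ e ∈ s, ind M e = ((s.filter fun e => e ∈ M).card : ℝ) := by
  simp only [ind]
  rw [Finset.card_filter]
  push_cast
  rfl

/-- For `M ⊆ F`, the `M`-edges of the star of `w` in `F` form the star of `w` in `M`. -/
theorem star_filter_mem [DecidableEq E] (ends : E → V × V) {F M : Finset E} (hMF : M ⊆ F) (w : V) :
    (star ends F w).filter (fun e => e ∈ M) = star ends M w := by
  ext e
  simp only [Crest.Agent.Helper62.S0466.star, Finset.mem_filter]
  constructor
  · rintro ⟨⟨-, h⟩, hM⟩; exact ⟨hM, h⟩
  · rintro ⟨hM, h⟩; exact ⟨⟨hMF hM, h⟩, hM⟩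

/-- For `M ⊆ F`, the `M`-edges of the cut of `U` in `F` form the cut of `U` in `M`. -/
theorem cut_filter_mem [DecidableEq E] (ends : E → V × V) {F M : Finset E} (hMF : M ⊆ F)
    (U : Finset V) : (cut ends F U).filter (fun e => e ∈ M) = cut ends M U := by
  ext e
  simp only [cut, Finset.mem_filter]
  constructor
  · rintro ⟨⟨-, h⟩, hM⟩; exact ⟨hM, h⟩
  · rintro ⟨hM, h⟩; exact ⟨⟨hMF hM, h⟩, hM⟩

/-- Parity: a perfect matching has an edge in every odd cut. -/
theorem cut_nonempty_of_isPM {ends : E → V × V} {A : Finset V} {F : Finset E} (hWF : WF ends A F)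
    {M : Finset E} (hM : IsPM ends A F M) {U : Finset V} (hU : U ⊆ A) (hodd : Odd U.card) :
    (cut ends M U).Nonempty := by
  classical
  by_contra hne
  rw [Finset.not_nonempty_iff_eq_empty] at hne
  obtain ⟨hMF, hcov⟩ := hM
  -- every edge of `M` has both ends in `U` or none
  have hboth : ∀ e ∈ M, ((ends e).1 ∈ U ↔ (ends e).2 ∈ U) := by
    intro e he
    by_contra hcon
    have : e ∈ cut ends M U := by
      simp only [cut, Finset.mem_filter]
      refine ⟨he, ?_⟩
      by_cases h1 : (ends e).1 ∈ U
      · left; exact ⟨h1, fun h2 => hcon ⟨fun _ => h2, fun _ => h1⟩⟩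
      · right
        refine ⟨h1, ?_⟩
        by_contra h2
        exact hcon ⟨fun h => absurd h h1, fun h => absurd h h2⟩
    rw [hne] at this
    exact absurd this (Finset.notMem_empty e)
  -- double counting
  have h1 : ∑ w ∈ U, (star ends M w).card = U.card := by
    rw [Finset.sum_congr rfl fun w hw => hcov w (hU hw)]
    simp
  have h2 : ∀ w ∈ U, (star ends M w).card =
      ∑ e ∈ M, if (ends e).1 = w ∨ (ends e).2 = w then 1 else 0 := by
    intro w _
    rw [Crest.Agent.Helper62.S0466.star, Finset.card_filter]
  have h3 : ∀ e ∈ M, (∑ w ∈ U, if (ends e).1 = w ∨ (ends e).2 = w then 1 else 0) =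
      if (ends e).1 ∈ U then 2 else 0 := by
    intro e he
    obtain ⟨-, -, hab⟩ := hWF e (hMF he)
    rw [← Finset.card_filter]
    by_cases ha : (ends e).1 ∈ U
    · have hb : (ends e).2 ∈ U := (hboth e he).1 ha
      have : U.filter (fun w => (ends e).1 = w ∨ (ends e).2 = w) = {(ends e).1, (ends e).2} := by
        ext w
        simp only [Finset.mem_filter, Finset.mem_insert, Finset.mem_singleton]
        constructor
        · rintro ⟨-, h | h⟩
          · exact Or.inl h.symm
          · exact Or.inr h.symm
        · rintro (h | h)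
          · exact ⟨h ▸ ha, Or.inl h.symm⟩
          · exact ⟨h ▸ hb, Or.inr h.symm⟩
      rw [this, Finset.card_pair hab, if_pos ha]
    · have hb : (ends e).2 ∉ U := fun h => ha ((hboth e he).2 h)
      have : U.filter (fun w => (ends e).1 = w ∨ (ends e).2 = w) = ∅ := by
        ext w
        simp only [Finset.mem_filter, Finset.notMem_empty, iff_false, not_and]
        rintro hw (h | h)
        · exact ha (h ▸ hw)
        · exact hb (h ▸ hw)
      rw [this, Finset.card_empty, if_neg ha]
  have h4 : U.card = 2 * (M.filter fun e => (ends e).1 ∈ U).card := by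
    rw [← h1, Finset.sum_congr rfl h2, Finset.sum_comm, Finset.sum_congr rfl h3,
      Finset.card_filter, Finset.mul_sum]
    refine Finset.sum_congr rfl fun e _ => ?_
    by_cases ha : (ends e).1 ∈ U <;> simp [ha]
  rcases hodd with ⟨k, hk⟩
  omega

end helpers

variable {V E : Type} [DecidableEq V] [DecidableEq E]

/-- The indicator of a perfect matching lies in Edmonds' polyhedron. -/
theorem ind_mem_QQ_of_isPM {ends : E → V × V} {A : Finset V} {F : Finset E} (hWF : WF ends A F)
    {M : Finset E} (hM : IsPM ends A F M) : ind M ∈ QQ ends A F := by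
  refine ⟨fun e he => ?_, fun e => ?_, fun w hw => ?_, fun U hU hodd => ?_⟩
  · have : e ∉ M := fun h => he (hM.1 h)
    simp [ind, this]
  · unfold ind; split_ifs <;> norm_num
  · rw [sum_ind_eq_card, star_filter_mem ends hM.1, hM.2 w hw]; norm_num
  · rw [sum_ind_eq_card, cut_filter_mem ends hM.1]
    have := cut_nonempty_of_isPM hWF hM hU hodd
    exact_mod_cast Finset.card_pos.2 this

/-- The perfect-matching polytope lies in Edmonds' polyhedron. -/
theorem PP_subset_QQ {ends : E → V × V} {A : Finset V} {F : Finset E} (hWF : WF ends A F) :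
    PP ends A F ⊆ QQ ends A F := by
  refine convexHull_min ?_ (convex_QQ ends A F)
  rintro _ ⟨M, hM, rfl⟩
  exact ind_mem_QQ_of_isPM hWF hM

end Crest.Agent.Helper63.S0466
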