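import Mathlib

set_option autoImplicit false

namespace Crest.Agent.Helper63.S0466

open Finset

/-- Dropping the indices with zero weight does not change a sum of terms that vanish there. -/
theorem sum_filter_ne_zero_eq {α M : Type*} [Fintype α] [AddCommMonoid M] (p : α → ℝ) (g : α → M)
    (hg : ∀ a, p a = 0 → g a = 0) :
    ∑ a ∈ Finset.univ.filter (fun a => p a ≠ 0), g a = ∑ a, g a := by
  classical
  refine Finset.sum_subset (Finset.filter_subset _ _) fun a _ ha => ?_
  have : p a = 0 := by
    by_contra h; exact ha (Finset.mem_filter.2 ⟨Finset.mem_univ a, h⟩)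
  exact hg a this

/-- Convex hull of the image of a subset of a finite index type, as weights on the index type:
`x ∈ convexHull ℝ (v '' S)` iff `x = ∑ a, p a • v a` for a probability vector `p` on `α`
vanishing off `S`. -/
theorem mem_convexHull_image_iff_weights {α E : Type*} [Fintype α] [AddCommGroup E] [Module ℝ E]
    (v : α → E) (S : Set α) (x : E) :
    x ∈ convexHull ℝ (v '' S) ↔
      ∃ p : α → ℝ, (∀ a, 0 ≤ p a) ∧ ∑ a, p a = 1 ∧ (∀ a, p a ≠ 0 → a ∈ S) ∧ ∑ a, p a • v a = x := by
  classical
  constructor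
  · intro hx
    let T : Set E := {x | ∃ p : α → ℝ, (∀ a, 0 ≤ p a) ∧ ∑ a, p a = 1 ∧ (∀ a, p a ≠ 0 → a ∈ S) ∧
      ∑ a, p a • v a = x}
    have hT : Convex ℝ T := by
      rintro y ⟨p, hp0, hp1, hpS, rfl⟩ z ⟨q, hq0, hq1, hqS, rfl⟩ a b ha hb hab
      refine ⟨fun i => a * p i + b * q i, fun i => ?_, ?_, fun i hi => ?_, ?_⟩
      · exact add_nonneg (mul_nonneg ha (hp0 i)) (mul_nonneg hb (hq0 i))
      · rw [Finset.sum_add_distrib, ← Finset.mul_sum, ← Finset.mul_sum, hp1, hq1, mul_one, mul_one, hab]
      · by_contra hnot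
        have h1 : p i = 0 := by
          by_contra h; exact hnot (hpS i h)
        have h2 : q i = 0 := by
          by_contra h; exact hnot (hqS i h)
        apply hi; simp [h1, h2]
      · simp only [add_smul, mul_smul, Finset.sum_add_distrib, Finset.smul_sum]
    have hsub : v '' S ⊆ T := by
      rintro _ ⟨a₀, ha₀, rfl⟩
      refine ⟨Pi.single a₀ 1, fun a => ?_, ?_, fun a ha => ?_, ?_⟩
      · by_cases h : a = a₀
        · subst h; simp
        · simp [Pi.single_eq_of_ne h]
      · simp
      · by_cases h : a = a₀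
        · subst h; exact ha₀
        · exact absurd (Pi.single_eq_of_ne (M := fun _ : α => ℝ) h (1 : ℝ)) ha
      · rw [Finset.sum_eq_single a₀]
        · simp
        · intro b _ hb; simp [Pi.single_eq_of_ne hb]
        · intro h; exact absurd (Finset.mem_univ a₀) h
    exact convexHull_min hsub hT hx
  · rintro ⟨p, hp0, hp1, hpS, rfl⟩
    have h1 : ∑ a ∈ Finset.univ.filter (fun a => p a ≠ 0), p a = 1 := by
      rw [sum_filter_ne_zero_eq p p (fun a ha => ha)]; exact hp1
    have hmem := (convex_convexHull ℝ (v '' S)).sum_mem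
      (t := Finset.univ.filter (fun a => p a ≠ 0)) (w := p) (z := v)
      (fun a _ => hp0 a) h1
      (fun a ha => subset_convexHull ℝ _ ⟨a, hpS a (Finset.mem_filter.1 ha).2, rfl⟩)
    have h2 : ∑ a ∈ Finset.univ.filter (fun a => p a ≠ 0), p a • v a = ∑ a, p a • v a :=
      sum_filter_ne_zero_eq p (fun a => p a • v a) (fun a ha => by rw [ha, zero_smul])
    rw [← h2]; exact hmem

end Crest.Agent.Helper63.S0466
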