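import Crest.Prelude.Def_MatchingPolytope
import Crest.Agent.Helper63.S0466.HullLaw

set_option autoImplicit false

namespace Crest.Agent.Helper63.S0466

open Crest.Matchings

/-- The Prelude's perfect-matching polytope in terms of matching laws:
`x ∈ pmPolytope ends` iff `x = ∑ M, p M • pmIndicator M` for a law `p` on perfect matchings. -/
theorem mem_pmPolytope_iff_law {v k : ℕ} (ends : Fin k → Fin v × Fin v) (x : Fin k → ℝ) :
    x ∈ pmPolytope ends ↔
      ∃ p : Finset (Fin k) → ℝ, IsMatchingLaw ends p ∧ ∑ M, p M • pmIndicator M = x := by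
  unfold pmPolytope IsMatchingLaw
  rw [mem_convexHull_image_iff_weights]
  constructor
  · rintro ⟨p, h0, h1, hS, hx⟩
    exact ⟨p, ⟨h0, h1, hS⟩, hx⟩
  · rintro ⟨p, ⟨h0, h1, hS⟩, hx⟩
    exact ⟨p, h0, h1, hS, hx⟩

/-- Coordinate form: `x e = ∑_{M ∋ e} p M`, i.e. `x` is the edge marginal of the law. -/
theorem mem_pmPolytope_iff_marginal {v k : ℕ} (ends : Fin k → Fin v × Fin v) (x : Fin k → ℝ) :
    x ∈ pmPolytope ends ↔
      ∃ p : Finset (Fin k) → ℝ, IsMatchingLaw ends p ∧ ∀ e, x e = marginal p e := by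
  rw [mem_pmPolytope_iff_law]
  have key : ∀ p : Finset (Fin k) → ℝ, ∀ e : Fin k,
      (∑ M, p M • pmIndicator M) e = marginal p e := by
    intro p e
    unfold marginal pmIndicator
    rw [Finset.sum_apply, Finset.sum_filter]
    refine Finset.sum_congr rfl fun M _ => ?_
    by_cases h : e ∈ M <;> simp [h]
  constructor
  · rintro ⟨p, hp, rfl⟩
    exact ⟨p, hp, fun e => key p e⟩
  · rintro ⟨p, hp, hx⟩
    refine ⟨p, hp, ?_⟩
    funext e
    rw [key p e, hx e]

end Crest.Agent.Helper63.S0466
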