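import Mathlib

set_option autoImplicit false

namespace Crest.Agent.Helper63.S0466

open Finset

/-- Finitely many positive reals have a common positive lower bound. -/
theorem exists_pos_le_all {ι : Type*} [Finite ι] (τ : ι → ℝ) (hτ : ∀ i, 0 < τ i) :
    ∃ t : ℝ, 0 < t ∧ ∀ i, t ≤ τ i := by
  classical
  have := Fintype.ofFinite ι
  have hT : 0 < ∑ i, (τ i)⁻¹ + 1 := by
    have : 0 ≤ ∑ i, (τ i)⁻¹ := Finset.sum_nonneg fun i _ => (inv_pos.mpr (hτ i)).le
    linarith
  refine ⟨(∑ i, (τ i)⁻¹ + 1)⁻¹, inv_pos.mpr hT, fun i => ?_⟩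
  rw [inv_le_comm₀ hT (hτ i)]
  have h1 : (τ i)⁻¹ ≤ ∑ j, (τ j)⁻¹ :=
    Finset.single_le_sum (f := fun j => (τ j)⁻¹) (fun j _ => (inv_pos.mpr (hτ j)).le)
      (Finset.mem_univ i)
  linarith

/-- Two-sided feasible directions of a polyhedron `Q = {y | ∀ i, d i ≤ f i y}` (finitely many
constraints): if `h` is annihilated by every constraint that is tight at `x ∈ Q`, then
`x + t • h ∈ Q` for all `t` of small absolute value. -/
theorem exists_eps_forall_add_smul_mem {E : Type*} [AddCommGroup E] [Module ℝ E]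
    {ι : Type*} [Finite ι] (f : ι → E →ₗ[ℝ] ℝ) (d : ι → ℝ) {Q : Set E}
    (hQ : ∀ y, y ∈ Q ↔ ∀ i, d i ≤ f i y) {x : E} (hx : x ∈ Q)
    {h : E} (hh : ∀ i, f i x = d i → f i h = 0) :
    ∃ ε : ℝ, 0 < ε ∧ ∀ t : ℝ, |t| < ε → x + t • h ∈ Q := by
  classical
  have hx' := (hQ x).1 hx
  have key : ∀ i, ∃ τ : ℝ, 0 < τ ∧ ∀ t : ℝ, |t| ≤ τ → d i ≤ f i (x + t • h) := by
    intro i
    by_cases hi : f i x = d i
    · refine ⟨1, one_pos, fun t _ => ?_⟩
      simp [map_add, map_smul, hh i hi, hi]
    · have hs : 0 < f i x - d i := by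
        rcases (hx' i).lt_or_eq with h1 | h1
        · linarith
        · exact absurd h1.symm hi
      refine ⟨(f i x - d i) / (|f i h| + 1), div_pos hs (by positivity), fun t ht => ?_⟩
      have h1 : |t| * (|f i h| + 1) ≤ f i x - d i := by
        rwa [le_div_iff₀ (by positivity)] at ht
      have h2 : |t * f i h| ≤ f i x - d i := by
        rw [abs_mul]; nlinarith [abs_nonneg (f i h), abs_nonneg t]
      have h3 := abs_le.mp h2
      simp only [map_add, map_smul, smul_eq_mul]; linarith [h3.1]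
  choose τ hτpos hτ using key
  obtain ⟨ε, hε0, hε⟩ := exists_pos_le_all τ hτpos
  exact ⟨ε, hε0, fun t ht => (hQ _).2 fun i => hτ i t (ht.le.trans (hε i))⟩

/-- Perturbation lemma for extreme points of a polyhedron given by finitely many linear
inequalities `d i ≤ f i y`: a direction annihilated by all constraints tight at an extreme point `x`
is zero. -/
theorem eq_zero_of_extreme_of_tight {E : Type*} [AddCommGroup E] [Module ℝ E]
    {ι : Type*} [Finite ι] (f : ι → E →ₗ[ℝ] ℝ) (d : ι → ℝ) {Q : Set E}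
    (hQ : ∀ y, y ∈ Q ↔ ∀ i, d i ≤ f i y) {x : E} (hx : x ∈ Q.extremePoints ℝ)
    {h : E} (hh : ∀ i, f i x = d i → f i h = 0) : h = 0 := by
  obtain ⟨ε, hε0, hε⟩ := exists_eps_forall_add_smul_mem f d hQ hx.1 hh
  have ht : |ε / 2| < ε := by rw [abs_of_pos (by positivity)]; linarith
  have ht' : |-(ε / 2)| < ε := by rwa [abs_neg]
  have hp : x + (ε / 2) • h ∈ Q := hε _ ht
  have hm : x + (-(ε / 2)) • h ∈ Q := hε _ ht'
  have hseg : x ∈ openSegment ℝ (x + (ε / 2) • h) (x + (-(ε / 2)) • h) := by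
    refine ⟨1/2, 1/2, by norm_num, by norm_num, by norm_num, ?_⟩
    rw [neg_smul, smul_add, smul_add, smul_neg]
    rw [add_add_add_comm, add_neg_cancel, add_zero, ← add_smul]
    norm_num
  have hEq : x + (ε / 2) • h = x := ((mem_extremePoints.1 hx).2 _ hp _ hm hseg).1
  have hth : (ε / 2) • h = 0 := by simpa using hEq
  rcases smul_eq_zero.1 hth with h0 | h0
  · exact absurd h0 (by positivity)
  · exact h0

/-- Krein–Milman reduction: a compact convex set all of whose extreme points lie in a closed convex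
set is contained in it. -/
theorem subset_of_extremePoints_subset {E : Type*} [AddCommGroup E] [Module ℝ E] [TopologicalSpace E]
    [T2Space E] [IsTopologicalAddGroup E] [ContinuousSMul ℝ E] [LocallyConvexSpace ℝ E]
    {Q P : Set E} (hQc : IsCompact Q) (hQ : Convex ℝ Q) (hPc : IsClosed P) (hP : Convex ℝ P)
    (h : Q.extremePoints ℝ ⊆ P) : Q ⊆ P := by
  have h1 : convexHull ℝ (Q.extremePoints ℝ) ⊆ P := convexHull_min h hP
  have h2 : closure (convexHull ℝ (Q.extremePoints ℝ)) ⊆ P := closure_minimal h1 hPc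
  rw [closure_convexHull_extremePoints hQc hQ] at h2
  exact h2

/-- The same with `P` the convex hull of a finite set. -/
theorem subset_convexHull_of_extremePoints_subset {E : Type*} [AddCommGroup E] [Module ℝ E]
    [TopologicalSpace E] [T2Space E] [IsTopologicalAddGroup E] [ContinuousSMul ℝ E]
    [LocallyConvexSpace ℝ E]
    {Q S : Set E} (hQc : IsCompact Q) (hQ : Convex ℝ Q) (hS : S.Finite)
    (h : Q.extremePoints ℝ ⊆ convexHull ℝ S) : Q ⊆ convexHull ℝ S :=
  subset_of_extremePoints_subset hQc hQ (hS.isClosed_convexHull ℝ) (convex_convexHull ℝ S) h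

end Crest.Agent.Helper63.S0466
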